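import Vale.Agent.P110N.Main

/-!
# P110: no ultraflat (nor flat) nested chains of real Littlewood polynomials

Initial segments of one infinite sign sequence, and more generally chains of Littlewood
polynomials with small steps, are not ultraflat; every infinite sign sequence has infinitely many
initial segments whose minimum modulus on the unit circle is below a fixed constant.
-/

namespace Vale.Agent.Results.P110.NestedChains

open P110N Filter

theorem result :
    -- (1) every infinite sign sequence has infinitely many initial segments with bounded minimum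
    (∀ a : ℕ → ℝ, IsSign a →
      ∃ K : ℝ, ∃ᶠ N : ℕ in atTop, ∃ z : ℂ, ‖z‖ = 1 ∧ ‖lit a N z‖ ≤ K) ∧
    -- (2) finite form: a Littlewood polynomial of length `N` with minimum above `2 ^ (n - 1)`
    -- has an initial segment of length in `[n, N)` with minimum at most `1`
    (∀ a : ℕ → ℝ, IsSign a → ∀ n N : ℕ, 0 < n → n ≤ N →
      (∀ z : ℂ, ‖z‖ = 1 → (2 : ℝ) ^ (n - 1) < ‖lit a N z‖) →
      ∃ l : ℕ, n ≤ l ∧ l < N ∧ ∃ z : ℂ, ‖z‖ = 1 ∧ ‖lit a l z‖ ≤ 1) ∧
    -- (3) initial segments along lengths with gaps below `c √N_j`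
    (∀ a : ℕ → ℝ, IsSign a → ∀ c : ℝ, 0 < c → ∀ N : ℕ → ℕ, Tendsto N atTop atTop → Monotone N →
      (∀ᶠ j : ℕ in atTop, (N (j + 1) : ℝ) - N j < c * Real.sqrt (N j)) →
      ∃ᶠ j : ℕ in atTop, ∃ z : ℂ, ‖z‖ = 1 ∧ ‖lit a (N j) z‖ < c * Real.sqrt (N j)) ∧
    -- (4) in any ultraflat sequence infinitely many steps change the coefficients by `c √N_j`
    (∀ (N : ℕ → ℕ) (ε : ℕ → ℕ → ℝ), (∀ j, IsSign (ε j)) → Ultraflat N ε → ∀ c : ℝ, c < 1 →
      ∃ᶠ j : ℕ in atTop,
        c * Real.sqrt (N j) ≤ change (ε j) (N j) (ε (j + 1)) (N (j + 1))) ∧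
    -- (5) no infinite sign sequence has all its initial segments forming an ultraflat sequence
    (∀ a : ℕ → ℝ, IsSign a → ¬ Ultraflat (fun j => j) (fun _ => a)) := by
  refine ⟨nested, nested_finite, nested_gaps, fun N ε hε h c hc => ultraflat_change hε h c hc, ?_⟩
  intro a ha h
  have h1 := ultraflat_lower h (1 / 2) (by norm_num)
  have h2 : ∀ᶠ j : ℕ in atTop, (4 : ℝ) < j := by
    exact tendsto_natCast_atTop_atTop.eventually (eventually_gt_atTop 4)
  have hgap : ∀ᶠ j : ℕ in atTop, (((j + 1 : ℕ) : ℝ)) - (j : ℕ) < (1 / 2) * Real.sqrt (j : ℕ) := by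
    filter_upwards [h2] with j hj
    have h3 : (2 : ℝ) < Real.sqrt j := by
      rw [Real.lt_sqrt (by norm_num)]
      norm_num
      exact_mod_cast hj
    push_cast
    linarith
  have h4 := nested_gaps a ha (1 / 2) (by norm_num) (fun j => j) tendsto_id monotone_id hgap
  obtain ⟨j, ⟨z, hz, hlt⟩, hf⟩ := (h4.and_eventually h1).exists
  exact absurd (hf z hz) (not_le.2 hlt)

end Vale.Agent.Results.P110.NestedChains
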